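import Crest.Agent.X212.Hel40.Bas

/-!
# X212/Hat42/Arg (helper42): the angle on the cut manifold, vertical segments, closed columns
-/

set_option autoImplicit false
set_option linter.unusedSectionVars false

open Set Filter Topology Function
open scoped ContDiff Manifold
open Crest.Agent.R208.F Crest.Agent.X212.Dr59 Crest.Agent.X212.Int54 Crest.Agent.X212.Cyl58
open Crest.Agent.X212.Sep15 (EE IR CM Box slab px Rg)
open Crest.Agent.X212.Bb31 (Fm)
open Crest.Agent.X212.Flo26 (SmV fl)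
open Crest.Agent.X212.Hel40

noncomputable section

namespace Crest.Agent.X212.Hat42

/-- logarithm along a homotopy -/
theorem log_htpy {X : Type*} [TopologicalSpace X] {D : Set X} {H : ℝ × X → Circle}
    (hH : ContinuousOn H (Icc 0 1 ×ˢ D)) (h0 : ∀ x ∈ D, H (0, x) = 1) :
    ∃ θ : X → ℝ, ContinuousOn θ D ∧ (∀ x ∈ D, Circle.exp (θ x) = H (1, x)) ∧
      ∀ x ∈ D, (∀ s ∈ Icc (0 : ℝ) 1, H (s, x) = 1) → θ x = 0 := by
  classical
  let G : C(unitInterval × D, Circle) := ⟨fun p => H (p.1, p.2),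
    hH.comp_continuous (by fun_prop) fun p => ⟨p.1.2, p.2.2⟩⟩
  have cov := Circle.isCoveringMap_exp
  have G0 : ∀ a : D, G (0, a) = Circle.exp ((0 : C(D, ℝ)) a) := fun a =>
    (h0 a a.2).trans Circle.exp_zero.symm
  let L := cov.liftHomotopy G 0 G0
  have L1 : ∀ p, Circle.exp (L p) = G p := fun p => congrFun (cov.liftHomotopy_lifts G 0 G0) p
  refine ⟨fun x => if h : x ∈ D then L (1, ⟨x, h⟩) else 0, ?_, fun x hx => ?_, fun x hx h => ?_⟩
  · rw [continuousOn_iff_continuous_domRestrict]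
    exact (L.continuous.comp (Continuous.prodMk_right 1)).congr fun x => by simp
  · exact (congrArg Circle.exp (dif_pos hx)).trans (L1 _)
  · refine (dif_pos hx).trans ((cov.const_of_comp (g := fun t => L (t, ⟨x, hx⟩))
      (L.continuous.comp (Continuous.prodMk_left _)) (fun t t' => ?_) 1 0).trans
      (cov.liftHomotopy_zero G 0 G0 _))
    exact (L1 _).trans (((h t t.2).trans (h t' t'.2).symm).trans (L1 (t', ⟨x, hx⟩)).symm)

variable {Y : CM 3} {R : CM 2} {o : Fm 3 Y} {v : Vf Y} {Φ : Y → Circle} {M : Set Y} {oR : Fm 2 R}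
  {b : R × ℝ → Y} {y : Y} {T T' : ℝ}

/-- the angle in `(-π, π]` -/
def ar (Φ : Y → Circle) (y : Y) : ℝ := Complex.arg (Φ y)

theorem exp_ar (y : Y) : Circle.exp (ar Φ y) = Φ y := Circle.exp_arg _

theorem ne_iff : (Φ y : ℂ) ≠ -1 ↔ |ar Φ y| < Real.pi := by
  refine ⟨fun h => abs_lt.2 ⟨Complex.neg_pi_lt_arg _, (Complex.arg_le_pi _).lt_of_ne fun e => h ?_⟩,
    fun h e => ?_⟩
  · rw [← Circle.exp_arg (Φ y), e]
    simp
  · rw [ar, e, Complex.arg_neg_one, abs_of_pos Real.pi_pos] at h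
    exact h.false

theorem ar_of {a : ℝ} (h : |a| < Real.pi) (e : Φ y = Circle.exp a) : ar Φ y = a := by
  rw [ar, e, Circle.arg_exp (abs_lt.1 h).1 (abs_lt.1 h).2.le]

theorem ar_zero : ar Φ y = 0 ↔ Φ y = 1 :=
  ⟨fun h => by rw [← exp_ar (Φ := Φ) y, h, Circle.exp_zero], fun h => by simp [ar, h]⟩

theorem continuous_abs_ar (h : Continuous Φ) : Continuous fun y => |ar Φ y| := by
  refine (Real.continuous_arccos.comp (Complex.continuous_re.comp
    (continuous_subtype_val.comp h))).congr fun y => ?_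
  have h1 := Complex.cos_arg (Circle.coe_ne_zero (Φ y))
  rw [Circle.norm_coe, div_one, ← Real.cos_abs] at h1
  exact (congrArg Real.arccos h1.symm).trans
    (Real.arccos_cos (abs_nonneg _) (Complex.abs_arg_le_pi _))

theorem continuousAt_ar (h : Continuous Φ) (hy : (Φ y : ℂ) ≠ -1) : ContinuousAt (ar Φ) y :=
  (Complex.continuousAt_arg (Complex.mem_slitPlane_iff_arg.2
    ⟨(abs_lt.1 (ne_iff.1 hy)).2.ne, Circle.coe_ne_zero _⟩)).comp
    (f := fun y => (Φ y : ℂ)) (continuous_subtype_val.comp h).continuousAt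

/-- the orbit segment stays in the cut manifold -/
def Av (v : Vf Y) (Φ : Y → Circle) (y : Y) (T : ℝ) : Prop :=
  ∀ t ∈ uIcc 0 T, (Φ (fl v t y) : ℂ) ≠ -1

theorem Av.mono (h : Av v Φ y T) (ht : T' ∈ uIcc 0 T) : Av v Φ y T' := fun t h1 =>
  h t (uIcc_subset_uIcc_left ht h1)

theorem col_ne (B : Bas o v Φ M) {K : Set Y} (h : y ∈ col v Φ K) : (Φ y : ℂ) ≠ -1 := by
  obtain ⟨T, -, h⟩ := h
  simpa only [Flo26.fl_zero B.smv] using h 0 left_mem_uIcc

theorem phi_eq (B : Bas o v Φ M) (y : Y) (t : ℝ) :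
    Φ (fl v t y) = Circle.exp (ar Φ y + ag Φ v y t) := by
  rw [phi_fl B.smv B.smΦ, Circle.exp_add, exp_ar]

theorem Av.ar_eq (B : Bas o v Φ M) (h : Av v Φ y T) : ar Φ (fl v T y) = ar Φ y + ag Φ v y T := by
  have c := fl_cont' B.smv continuous_id (continuous_const (y := y) (X := ℝ))
  refine Circle.isCoveringMap_exp.eqOn_of_comp_eqOn (g₁ := fun t => ar Φ (fl v t y))
    (g₂ := fun t => ar Φ y + ag Φ v y t) (s := uIcc 0 T) isPreconnected_uIcc (fun t ht => ?_)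
    (continuous_const.add ((continuous_ag B.smv B.smΦ).comp (.prodMk_right y))).continuousOn
    (fun t _ => (exp_ar _).trans (phi_eq B y t)) left_mem_uIcc ?_ right_mem_uIcc
  · exact ((continuousAt_ar B.smΦ.continuous (h t ht)).comp (f := fun t => fl v t y)
      c.continuousAt).continuousWithinAt
  · simp only [Flo26.fl_zero B.smv, ag_zero, add_zero]

theorem ag_mem (B : Bas o v Φ M) {t : ℝ} (ht : t ∈ uIcc 0 T) :
    ar Φ y + ag Φ v y t ∈ uIcc (ar Φ y) (ar Φ y + ag Φ v y T) := by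
  have h := (((ag_mono B.smv B.smΦ B.nn y).const_add (ar Φ y)).monotoneOn (uIcc 0 T)).mapsTo_uIcc ht
  simpa only [ag_zero, add_zero] using h

theorem abs_le_of_mem {a c x m : ℝ} (h : x ∈ uIcc a c) (ha : |a| ≤ m) (hc : |c| ≤ m) : |x| ≤ m :=
  abs_le.2 ⟨(le_min (abs_le.1 ha).1 (abs_le.1 hc).1).trans h.1,
    h.2.trans (max_le (abs_le.1 ha).2 (abs_le.1 hc).2)⟩

theorem av_iff (B : Bas o v Φ M) :
    Av v Φ y T ↔ |ar Φ y| < Real.pi ∧ |ar Φ y + ag Φ v y T| < Real.pi := by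
  refine ⟨fun h => ⟨?_, h.ar_eq B ▸ ne_iff.1 (h T right_mem_uIcc)⟩, fun h t ht => ?_⟩
  · simpa only [Flo26.fl_zero B.smv] using ne_iff.1 (h 0 left_mem_uIcc)
  · have h1 := (abs_le_of_mem (ag_mem B ht) (le_max_left _ _) (le_max_right _ _)).trans_lt
      (max_lt h.1 h.2)
    rwa [ne_iff, ar_of h1 (phi_eq B y t)]

theorem Av.seg (B : Bas o v Φ M) (h : Av v Φ y T) {t m : ℝ} (ht : t ∈ uIcc 0 T)
    (h1 : |ar Φ y| ≤ m) (h2 : |ar Φ (fl v T y)| ≤ m) : |ar Φ (fl v t y)| ≤ m := by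
  rw [(h.mono ht).ar_eq B]
  exact abs_le_of_mem (ag_mem B ht) h1 (h.ar_eq B ▸ h2)

theorem fl_neg (B : Bas o v Φ M) (T : ℝ) (y : Y) : fl v (-T) (fl v T y) = y := by
  rw [← fl_add B.smv, neg_add_cancel, Flo26.fl_zero B.smv]

theorem Av.symm (B : Bas o v Φ M) (h : Av v Φ y T) : Av v Φ (fl v T y) (-T) := by
  have h1 := (av_iff B).1 h
  have h2 := ag_add B.smv B.smΦ y (-T) T
  rw [neg_add_cancel, ag_zero] at h2
  rw [av_iff B, h.ar_eq B, add_assoc, ← h2, add_zero]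
  exact h1.symm

theorem Av.trans (B : Bas o v Φ M) (h : Av v Φ y T) (h' : Av v Φ (fl v T y) T') :
    Av v Φ y (T' + T) := by
  rw [av_iff B, ag_add B.smv B.smΦ, ← add_assoc, ← h.ar_eq B]
  exact ⟨((av_iff B).1 h).1, ((av_iff B).1 h').2⟩

theorem not_col (B : Bas o v Φ M) (h : y ∈ M) : y ∉ col v Φ (PP Φ M) := fun ⟨T, h1, h2⟩ => by
  have e := Av.ar_eq B h2
  rw [ar_zero.2 h1.1, ar_zero.2 (B.one y h), zero_add, ← ag_zero (Φ := Φ) (v := v) y] at e
  have s := ag_strict B.smv B.smΦ B.nn (B.pos _ h1.2)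
  rcases lt_trichotomy 0 T with c | rfl | c
  · exact (s.1 0 c).ne e
  · exact h1.2 ((Flo26.fl_zero B.smv y).symm ▸ h)
  · exact (s.2 0 c).ne' e

theorem pp_col (B : Bas o v Φ M) (h : y ∈ PP Φ M) : y ∈ col v Φ (PP Φ M) :=
  ⟨0, (Flo26.fl_zero B.smv y).symm ▸ h, (av_iff B (T := 0)).2 (by
    simpa only [ar_zero.2 h.1, ag_zero, add_zero, abs_zero, and_self] using Real.pi_pos)⟩

/-! ### the box -/

/-- the angle at height `s` -/
def al (s : ℝ) : ℝ := Real.pi - 2 * Real.arctan s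

theorem al_pos (s : ℝ) : 0 < al s := by
  have := Real.arctan_lt_pi_div_two s
  rw [al]
  linarith

theorem al_lt {s s' : ℝ} : al s < al s' ↔ s' < s := by
  rw [al, al, sub_lt_sub_iff_left, mul_lt_mul_iff_right₀ two_pos, Real.arctan_lt_arctan_iff]

theorem al_lt_pi {s : ℝ} (h : 0 < s) : al s < Real.pi := by simpa [al] using h

theorem ar_pos (X : Bx o v Φ oR b) (x : R) {s : ℝ} (h : 0 < s) : ar Φ (b (x, s)) = -al s := by
  refine ar_of (by rw [abs_neg, abs_of_pos (al_pos s)]; exact al_lt_pi h) ?_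
  rw [X.ang, cay, Circle.exp_eq_exp]
  exact ⟨1, by rw [al]; push_cast; ring⟩

theorem ar_neg (X : Bx o v Φ oR b) (x : R) {s : ℝ} (h : s < 0) : ar Φ (b (x, s)) = al (-s) := by
  refine ar_of (by rw [abs_of_pos (al_pos _)]; exact al_lt_pi (neg_pos.2 h)) ?_
  rw [X.ang, cay, al, Real.arctan_neg]
  congr 1
  ring

theorem abs_ar (X : Bx o v Φ oR b) (x : R) {s : ℝ} (h : s ≠ 0) : |ar Φ (b (x, s))| = al |s| := by
  rcases h.lt_or_gt with h | h
  · rw [ar_neg X x h, abs_of_pos (al_pos _), abs_of_neg h]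
  · rw [ar_pos X x h, abs_neg, abs_of_pos (al_pos _), abs_of_pos h]

theorem b_ne (X : Bx o v Φ oR b) {p : R × ℝ} : (Φ (b p) : ℂ) ≠ -1 ↔ p.2 ≠ 0 := by
  rw [X.ang, Ne, cay_eq_neg]

theorem b_pos (B : Bas o v Φ M) (X : Bx o v Φ oR b) (p : R × ℝ) : 0 < rt Φ v (b p) :=
  B.pos _ fun h => cay_ne_one _ ((X.ang p).symm.trans (B.one _ h))

/-- vertical segments of the box are orbit segments -/
theorem vert (trk : TrkStmt) (B : Bas o v Φ M) (X : Bx o v Φ oR b) (x : R) {s s' : ℝ}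
    (h : 0 < s * s') : ∃ T, fl v T (b (x, s)) = b (x, s') ∧ Av v Φ (b (x, s)) T := by
  have sub : uIcc s s' ⊆ Ioo (min s s' - 1) (max s s' + 1) := fun t ht =>
    ⟨by linarith [ht.1], by linarith [ht.2]⟩
  have c : ∀ t : ℝ, ContMDiffAt 𝓘(ℝ, ℝ) (IR 2) ∞ (fun t : ℝ => (x, t)) t := fun t =>
    contMDiffAt_const.prodMk contMDiffAt_id
  obtain ⟨τ, t1, -, t3⟩ := trk Y v (fun t => b (x, t)) _ _ B.smv fun t _ => by
    refine ⟨(X.box.contMDiff _).comp t (c t), fun e => ?_, ?_⟩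
    · have := b_pos B X (x, t)
      rw [rt, e] at this
      exact this.ne' (map_zero _)
    · obtain ⟨g, g0, g1⟩ := X.vert (x, t)
      refine ⟨g, g0, Eq.trans ?_ g1⟩
      rw [show (fun t => b (x, t)) = b ∘ fun t => (x, t) from rfl,
        mf_comp ((X.box.contMDiff _).mdifferentiableAt (by simp)) ((c t).mdifferentiableAt (by simp)),
        mf_prodMk (g := fun t : ℝ => t) mdifferentiableAt_const mdifferentiableAt_id, mf_const]
      exact congrArg (fun w => mf (IR 2) (𝓡 3) b (x, t) (0, w))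
        (congrArg (fun L : ℝ →L[ℝ] ℝ => L 1) (mf_id (I := 𝓘(ℝ, ℝ)) t))
  refine ⟨τ s' - τ s, t3 s (sub left_mem_uIcc) s' (sub right_mem_uIcc), fun t ht => ?_⟩
  obtain ⟨r, r1, r2⟩ := intermediate_value_uIcc ((t1.mono sub).sub (continuousOn_const (c := τ s)))
    (show t ∈ uIcc (τ s - τ s) (τ s' - τ s) by rwa [sub_self])
  rw [← r2, Pi.sub_apply, t3 s (sub left_mem_uIcc) r (sub r1), b_ne X]
  rintro (rfl : r = 0)
  rcases mem_uIcc.1 r1 with c | c <;> nlinarith [c.1, c.2]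

/-- every column meets every height of the box -/
theorem hit (trk : TrkStmt) (B : Bas o v Φ M) (X : Bx o v Φ oR b) (hy : y ∈ col v Φ (PP Φ M))
    {s : ℝ} (hs : s ≠ 0) : ∃ T x, fl v T y = b (x, s) ∧ Av v Φ y T := by
  obtain ⟨T, h1, h2⟩ := hy
  generalize e : fl v T y = p at h1
  have st := ag_strict B.smv B.smΦ B.nn (y := p) (t := 0)
    ((Flo26.fl_zero B.smv p).symm ▸ B.pos p h1.2)
  rw [ag_zero] at st
  have c : Continuous fun r : ℝ => |ag Φ v p (-(r * s))| :=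
    ((continuous_ag B.smv B.smΦ).comp (f := fun r : ℝ => (p, -(r * s))) (by fun_prop)).abs
  obtain ⟨r, r1, r0⟩ := (((c.continuousAt (x := 0)).eventually (gt_mem_nhds (a := Real.pi)
    (by simpa [ag_zero] using Real.pi_pos))).filter_mono (nhdsWithin_le_nhds (s := Ioi 0))).and
    self_mem_nhdsWithin |>.exists
  replace r0 : 0 < r := r0
  have a0 := ar_zero.2 h1.1
  have a1 : Av v Φ p (-(r * s)) := (av_iff B).2 (by
    rw [a0, zero_add, abs_zero]; exact ⟨Real.pi_pos, r1⟩)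
  have a2 := a1.ar_eq B
  rw [a0, zero_add] at a2
  have sg : ag Φ v p (-(r * s)) * s < 0 := by
    rcases hs.lt_or_gt with c | c
    · exact mul_neg_of_pos_of_neg (st.2 _ (neg_pos.2 (mul_neg_of_pos_of_neg r0 c))) c
    · exact mul_neg_of_neg_of_pos (st.1 _ (neg_lt_zero.2 (mul_pos r0 c))) c
  obtain ⟨⟨x, s₀⟩, e1⟩ : fl v (-(r * s)) p ∈ range b := X.rg ▸ fun e => by
    rw [← a2, ar_zero.2 e, zero_mul] at sg
    exact sg.false
  have s0 : s₀ ≠ 0 := (b_ne X (p := (x, s₀))).1 (e1 ▸ a1 _ right_mem_uIcc)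
  obtain ⟨T₁, e2, a3⟩ := vert trk B X x (s := s₀) (s' := s) (by
    rw [← a2, ← e1] at sg
    rcases s0.lt_or_gt with c | c
    · rw [ar_neg X x c] at sg
      exact mul_pos_of_neg_of_neg c (neg_of_mul_neg_right sg (al_pos _).le)
    · rw [ar_pos X x c, neg_mul, neg_lt_zero] at sg
      exact mul_pos c (pos_of_mul_pos_right sg (al_pos _).le))
  rw [e1] at e2 a3
  subst e
  exact ⟨T₁ + -(r * s) + T, x, by rw [fl_add B.smv, fl_add B.smv, e2],
    Av.trans B h2 (a1.trans B a3)⟩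

/-- the columns over a compact set are closed in the cut manifold -/
theorem closed_col (trk : TrkStmt) (B : Bas o v Φ M) (X : Bx o v Φ oR b) {K : Set Y}
    (hK : IsCompact K) (hP : K ⊆ PP Φ M) {α : ℝ} (hα : α < Real.pi) :
    IsClosed {y | y ∈ col v Φ K ∧ |ar Φ y| ≤ α} := by
  have ca : Continuous al := continuous_const.sub (continuous_const.mul Real.continuous_arctan)
  obtain ⟨s, s1, s0⟩ := (((ca.continuousAt (x := 0)).eventually (lt_mem_nhds (a := α)
    (by simpa [al] using hα))).filter_mono (nhdsWithin_le_nhds (s := Ioi 0))).and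
    self_mem_nhdsWithin |>.exists
  replace s0 : 0 < s := s0
  have cg := continuous_ag B.smv B.smΦ
  have mo := ag_mono B.smv B.smΦ B.nn
  obtain ⟨n, hn⟩ := hK.elim_directed_cover
    (fun n : ℕ => {k | α < ag Φ v k n ∧ ag Φ v k (-n) < -α})
    (fun n => (isOpen_lt continuous_const (cg.comp (.prodMk_left _))).inter
      (isOpen_lt (cg.comp (.prodMk_left _)) continuous_const)) (fun k hk => by
      obtain ⟨T₁, x₁, e₁, a₁⟩ := hit trk B X (pp_col B (hP hk)) (neg_ne_zero.2 s0.ne')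
      obtain ⟨T₂, x₂, e₂, a₂⟩ := hit trk B X (pp_col B (hP hk)) s0.ne'
      have f₁ := a₁.ar_eq B
      have f₂ := a₂.ar_eq B
      rw [e₁, ar_neg X _ (neg_lt_zero.2 s0), neg_neg, ar_zero.2 (hP hk).1, zero_add] at f₁
      rw [e₂, ar_pos X _ s0, ar_zero.2 (hP hk).1, zero_add] at f₂
      obtain ⟨n, hn⟩ := exists_nat_ge (max T₁ (-T₂))
      exact mem_iUnion.2 ⟨n, (s1.trans_eq f₁).trans_le (mo k ((le_max_left _ _).trans hn)),
        ((mo k (neg_le.1 ((le_max_right _ _).trans hn))).trans_eq f₂.symm).trans_lt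
          (neg_lt_neg s1)⟩)
    (directed_of_isDirected_le fun m n hmn k hk => ⟨hk.1.trans_le (mo k (Nat.cast_le.2 hmn)),
      (mo k (neg_le_neg (Nat.cast_le.2 hmn))).trans_lt hk.2⟩)
  have cp : IsCompact ((Icc (-(n : ℝ)) n ×ˢ K) ∩ {p : ℝ × Y | |ag Φ v p.2 p.1| ≤ α}) :=
    (isCompact_Icc.prod hK).inter_right
      (isClosed_le (cg.comp continuous_swap).abs continuous_const)
  convert (cp.image (fl_cont B.smv)).isClosed using 1
  ext y
  constructor
  · rintro ⟨⟨T, h1, h2⟩, h3⟩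
    have a := (Av.symm B h2).ar_eq B
    rw [fl_neg B, ar_zero.2 (hP h1).1, zero_add] at a
    rw [a, abs_le] at h3
    exact ⟨(-T, fl v T y), ⟨⟨⟨not_lt.1 fun c => ((mo _ c.le).trans_lt (hn h1).2).not_ge h3.1,
      not_lt.1 fun c => ((hn h1).1.trans_le (mo _ c.le)).not_ge h3.2⟩, h1⟩, abs_le.2 h3⟩,
      fl_neg B T y⟩
  · rintro ⟨⟨t, k⟩, ⟨⟨-, h1⟩, h2⟩, rfl⟩
    have a0 := ar_zero.2 (hP h1).1
    have a : Av v Φ k t := (av_iff B).2 (by
      rw [a0, zero_add, abs_zero]; exact ⟨Real.pi_pos, h2.trans_lt hα⟩)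
    refine ⟨⟨-t, (fl_neg B t k).symm ▸ h1, a.symm B⟩, ?_⟩
    rw [a.ar_eq B, a0, zero_add]
    exact h2

end Crest.Agent.X212.Hat42
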