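import Crest.Agent.X212.Hat42.Arg

/-!
# X212/Hat42/Main (helper42): PHIHAT, the cutting function extends over the cut manifold
-/

set_option autoImplicit false
set_option linter.unusedSectionVars false

open Set Filter Topology Function
open scoped ContDiff Manifold
open Crest.Agent.R208.F Crest.Agent.X212.Dr59 Crest.Agent.X212.Int54 Crest.Agent.X212.Cyl58
open Crest.Agent.X212.Sep15 (EE IR CM Box slab px Rg)
open Crest.Agent.X212.Bb31 (Fm)
open Crest.Agent.X212.Flo26 (SmV fl)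
open Crest.Agent.X212.Line51 (CSm)
open Crest.Agent.X212.Hel40

noncomputable section

namespace Crest.Agent.X212.Hat42

/-! ### the vertical retraction -/

/-- smooth `max a s` -/
def rp (a s : ℝ) : ℝ := a + (s - a) * Real.smoothTransition (s - a)

/-- the odd version -/
def rr (a s : ℝ) : ℝ := if 0 < s then rp a s else -rp a (-s)

variable {a s : ℝ}

theorem rp_lo (h : s ≤ a) : rp a s = a := by
  rw [rp, Real.smoothTransition.zero_of_nonpos (sub_nonpos.2 h), mul_zero, add_zero]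

theorem rp_hi (h : a + 1 ≤ s) : rp a s = s := by
  rw [rp, Real.smoothTransition.one_of_one_le (le_sub_iff_add_le'.2 h), mul_one, add_sub_cancel]

theorem rp_ge (a s : ℝ) : a ≤ rp a s := (le_total s a).elim (fun h => (rp_lo h).ge) fun h =>
  le_add_of_nonneg_right (mul_nonneg (sub_nonneg.2 h) (Real.smoothTransition.nonneg _))

theorem cd_rp : ContDiff ℝ ∞ (rp a) :=
  contDiff_const.add ((contDiff_id.sub contDiff_const).mul
    (Real.smoothTransition.contDiff.comp (contDiff_id.sub contDiff_const)))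

theorem cd_rr (h : s ≠ 0) : ContDiffAt ℝ ∞ (rr a) s := by
  rcases h.lt_or_gt with h | h
  · refine ((cd_rp (a := a)).comp contDiff_neg).neg.contDiffAt.congr_of_eventuallyEq ?_
    filter_upwards [gt_mem_nhds h] with t ht using if_neg ht.not_gt
  · refine (cd_rp (a := a)).contDiffAt.congr_of_eventuallyEq ?_
    filter_upwards [lt_mem_nhds h] with t ht using if_pos ht

theorem rr_sg (ha : 0 < a) (h : s ≠ 0) : 0 < s * rr a s ∧ |rr a s| = rp a |s| := by
  rcases h.lt_or_gt with h | h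
  · have := ha.trans_le (rp_ge a (-s))
    rw [rr, if_neg h.not_gt, abs_neg, abs_of_pos this, abs_of_neg h]
    exact ⟨mul_pos_of_neg_of_neg h (neg_lt_zero.2 this), rfl⟩
  · have := ha.trans_le (rp_ge a s)
    rw [rr, if_pos h, abs_of_pos this, abs_of_pos h]
    exact ⟨mul_pos h this, rfl⟩

theorem rr_hi (h : a + 1 ≤ |s|) : rr a s = s := by
  rw [rr]
  split_ifs with c
  · exact rp_hi (abs_of_pos c ▸ h)
  · rw [rp_hi (abs_of_nonpos (not_lt.1 c) ▸ h), neg_neg]

variable {Y : CM 3} {R : CM 2} {o : Fm 3 Y} {v : Vf Y} {Φ : Y → Circle} {M M' : Set Y}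
  {oR : Fm 2 R} {b : R × ℝ → Y} {F N : Set R} {f : Y → R} {π : R → Y} {y : Y}

/-- the retraction of the cut manifold -/
def ro (b : R × ℝ → Y) (a : ℝ) : Y → Y := extend b (fun p => b (p.1, rr a p.2)) id

theorem ro_b (X : Bx o v Φ oR b) (p : R × ℝ) : ro b a (b p) = b (p.1, rr a p.2) :=
  X.box.inj.extend_apply _ _ p

theorem ro_id (X : Bx o v Φ oR b) (ha : 0 < a) (h : |ar Φ y| ≤ al (a + 1)) : ro b a y = y := by
  by_cases c : ∃ p, b p = y
  · obtain ⟨⟨x, s⟩, rfl⟩ := c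
    have s0 : s ≠ 0 := (b_ne X (p := (x, s))).1 (ne_iff.2 (h.trans_lt (al_lt_pi (by linarith))))
    rw [abs_ar X x s0] at h
    rw [ro_b X, rr_hi (not_lt.1 fun c => (al_lt.2 c).not_ge h)]
  · exact extend_apply' _ _ _ c

theorem ar_off (X : Bx o v Φ oR b) (h : ¬∃ p, b p = y) : ar Φ y = 0 :=
  ar_zero.2 (not_not.1 fun c => h (X.rg.ge c))

theorem ro_near (B : Bas o v Φ M) (X : Bx o v Φ oR b) (ha : 0 < a) (h : ar Φ y = 0) :
    ∀ᶠ z in 𝓝 y, ro b a z = z := by
  filter_upwards [(continuous_abs_ar B.smΦ.continuous).continuousAt.eventually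
    (gt_mem_nhds (a := al (a + 1)) (by simpa only [h, abs_zero] using al_pos _))] with z hz
  exact ro_id X ha hz.le

theorem ro_sm (B : Bas o v Φ M) (X : Bx o v Φ oR b) (ha : 0 < a) (h : (Φ y : ℂ) ≠ -1) :
    ContMDiffAt (𝓡 3) (𝓡 3) ∞ (ro b a) y := by
  by_cases c : ∃ p, b p = y
  · obtain ⟨p, rfl⟩ := c
    rw [← X.box.contMDiffAt_iff, show ro b a ∘ b = _ from funext (ro_b X)]
    exact (X.box.contMDiff _).comp p (contMDiffAt_fst.prodMk
      ((cd_rr ((b_ne X).1 h)).contMDiffAt.comp p contMDiffAt_snd))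
  · exact contMDiffAt_id.congr_of_eventuallyEq (ro_near B X ha (ar_off X c))

theorem ro_ar (X : Bx o v Φ oR b) (ha : 0 < a) (h : (Φ y : ℂ) ≠ -1) :
    |ar Φ (ro b a y)| < al (a - 1) := by
  by_cases c : ∃ p, b p = y
  · obtain ⟨p, rfl⟩ := c
    have h1 := rr_sg ha ((b_ne X).1 h)
    rw [ro_b X, abs_ar X _ (right_ne_zero_of_mul h1.1.ne'), h1.2, al_lt]
    linarith [rp_ge a |p.2|]
  · rw [ro, extend_apply' _ _ _ c, id, ar_off X c, abs_zero]
    exact al_pos _

theorem ro_col (trk : TrkStmt) (B : Bas o v Φ M) (X : Bx o v Φ oR b) (T : Ft v Φ M b 1 F f π)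
    (ha : 0 < a) (h : y ∈ col v Φ (PP Φ M)) :
    ro b a y ∈ col v Φ (PP Φ M) ∧ f (ro b a y) = f y := by
  by_cases c : ∃ p, b p = y
  · obtain ⟨p, rfl⟩ := c
    obtain ⟨t, e, h1⟩ := vert trk B X p.1 (rr_sg ha ((b_ne X).1 (col_ne B h))).1
    rw [ro_b X, ← e]
    exact T.flow _ h t h1
  · rw [ro, extend_apply' _ _ _ c]
    exact ⟨h, rfl⟩

/-! ### the logarithm along the columns -/

/-- the part of the columns over `N` near the level `1` -/
def DD (v : Vf Y) (Φ : Y → Circle) (M : Set Y) (f : Y → R) (N : Set R) (a : ℝ) : Set Y :=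
  {y | y ∈ col v Φ (PP Φ M) ∧ |ar Φ y| < al (a - 1) ∧ f y ∈ N}

theorem theta (trk : TrkStmt) (B : Bas o v Φ M) (X : Bx o v Φ oR b) (S : Pre v M M')
    (T : Ft v Φ M b 1 F f π) (ha : 0 < a)
    (hO : ∀ y, |ar Φ y| ≤ al (a - 1) → (y ∈ col v Φ (PP Φ M) → f y ∈ N) → y ∈ S.O) :
    ∃ θ : Y → ℝ, ContinuousOn θ (DD v Φ M f N a) ∧
      (∀ y ∈ DD v Φ M f N a, S.φ (b (f y, a)) * Circle.exp (θ y) = S.φ y) ∧
      ∀ x ∈ F, x ∈ N → θ (b (x, a)) = 0 := by
  have a1 : 0 < 1 * a := by rwa [one_mul]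
  have h1 : ∀ y ∈ col v Φ (PP Φ M), ∃ t, fl v t y = b (f y, a) ∧ Av v Φ y t := fun y hy => by
    obtain ⟨t, x, e, h⟩ := hit trk B X hy ha.ne'
    refine ⟨t, ?_, h⟩
    rw [← (T.flow y hy t h).2, e, T.box x a a1]
  choose! τ τ1 τ2 using h1
  have cr : ∀ y ∈ col v Φ (PP Φ M), Crs (fun y t => ar Φ y + ag Φ v y t + al a) y (τ y) :=
    fun y hy => by
      have e := (τ2 y hy).ar_eq B
      rw [τ1 y hy, ar_pos X _ ha] at e
      have st := ag_strict B.smv B.smΦ B.nn ((τ1 y hy).symm ▸ b_pos B X (f y, a))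
      exact ⟨fun s hs => by linarith [st.1 s hs], fun s hs => by linarith [st.2 s hs]⟩
  have τc : ContinuousOn τ (col v Φ (PP Φ M)) := continuousOn_crs (fun t y hy =>
    (((continuousAt_ar B.smΦ.continuous (col_ne B hy)).add ((continuous_ag B.smv B.smΦ).comp
      (.prodMk_left t)).continuousAt).add continuousAt_const).continuousWithinAt) cr
  have lt : al a < al (a - 1) := al_lt.2 (sub_one_lt a)
  have Gc : ContinuousOn (fun p : ℝ × Y => S.φ (fl v ((1 - p.1) * τ p.2) p.2))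
      (Icc 0 1 ×ˢ DD v Φ M f N a) := by
    refine S.sφ.continuousOn.comp ((fl_cont B.smv).comp_continuousOn
      (((continuousOn_const.sub continuousOn_fst).mul
        (τc.comp continuousOn_snd fun p hp => hp.2.1)).prodMk continuousOn_snd)) fun p hp => ?_
    have m : (1 - p.1) * τ p.2 ∈ uIcc 0 (τ p.2) := by
      have := hp.1.1
      have := hp.1.2
      rcases le_total 0 (τ p.2) with c | c
      · exact mem_uIcc_of_le (by nlinarith) (by nlinarith)
      · exact mem_uIcc_of_ge (by nlinarith) (by nlinarith)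
    refine hO _ ((τ2 _ hp.2.1).seg B m hp.2.2.1.le ?_) fun _ => ?_
    · rw [τ1 _ hp.2.1, abs_ar X _ ha.ne', abs_of_pos ha]
      exact lt.le
    · rw [(T.flow _ hp.2.1 _ ((τ2 _ hp.2.1).mono m)).2]
      exact hp.2.2.2
  obtain ⟨θ, c, e, z⟩ := log_htpy (H := fun p : ℝ × Y => S.φ (fl v ((1 - p.1) * τ p.2) p.2) /
    S.φ (fl v ((1 - 0) * τ p.2) p.2)) (Gc.div' (Gc.comp (f := fun p : ℝ × Y => ((0 : ℝ), p.2))
      (by fun_prop) fun p hp => ⟨left_mem_Icc.2 zero_le_one, hp.2⟩)) fun _ _ => div_self' _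
  refine ⟨θ, c, fun y hy => ?_, fun x hx hN => ?_⟩
  · rw [e y hy]
    simp only [sub_self, zero_mul, sub_zero, one_mul, Flo26.fl_zero B.smv, τ1 y hy.1,
      mul_div_cancel]
  · have m := (T.mem x a a1).2 hx
    have t0 : τ (b (x, a)) = 0 := by
      have e0 : ar Φ (b (x, a)) + ag Φ v (b (x, a)) 0 + al a = 0 := by
        rw [ar_pos X x ha, ag_zero, add_zero, neg_add_cancel]
      exact le_antisymm (not_lt.1 fun c => ((cr _ m).1 0 c).ne e0)
        (not_lt.1 fun c => ((cr _ m).2 0 c).ne' e0)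
    refine z _ ⟨m, ?_, (T.box x a a1).symm ▸ hN⟩ fun s _ => ?_
    · rwa [abs_ar X x ha.ne', abs_of_pos ha]
    · simp only [t0, mul_zero, div_self']

/-! ### the extension -/

theorem core (trk : TrkStmt) (B : Bas o v Φ M) (X : Bx o v Φ oR b) (S : Pre v M M')
    (T : Ft v Φ M b 1 F f π) (ha : 8 ≤ a) (hN : IsOpen N) (hF : Fᶜ ⊆ N)
    (hO : ∀ y, |ar Φ y| ≤ al (a - 1) → (y ∈ col v Φ (PP Φ M) → f y ∈ N) → y ∈ S.O)
    {θ : Y → ℝ} {d w : R → Circle} (hd : SC d) (hw : SC w) (d1 : ∀ x ∈ N, d x = 1)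
    (w1 : ∀ x ∉ F, w x = S.φ (b (x, a))) (θc : ContinuousOn θ (DD v Φ M f N a))
    (θe : ∀ y ∈ DD v Φ M f N a, w (f y) * Circle.exp (θ y) = S.φ y)
    (θ0 : ∀ x ∈ F, x ∈ N → θ (b (x, a)) = 0) :
    ∃ (ψ : Y → Circle) (um : R → Circle), SC um ∧
      ContMDiffOn (𝓡 3) (𝓡 1) ∞ ψ {y | (Φ y : ℂ) ≠ -1} ∧ (∀ᶠ y in 𝓝ˢ M, ψ y = S.φ y) ∧
      (∀ x, ∀ s ∈ Ioc (0 : ℝ) 7, ψ (b (x, s)) = d x * w x ∧ ψ (b (x, -s)) = um x) ∧
      ∀ x, w x = 1 → (x ∉ N ∨ ∀ y, θ y = 0) → ∀ y ∈ col v Φ (PP Φ M), f y = x → ψ y = d x := by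
  classical
  have a0 : 0 < a := by linarith
  have a1 : 0 < 1 * a := by rwa [one_mul]
  have ca := continuous_abs_ar B.smΦ.continuous
  obtain ⟨χ, χ0, χ1, -⟩ := exists_contMDiffMap_zero_one_nhds_of_isClosed (𝓡 2) (n := ⊤)
    hN.isClosed_compl T.op.isClosed_compl (disjoint_compl_left_iff_subset.2 hF)
  let ψ : Y → Circle := fun y => if y ∈ col v Φ (PP Φ M) then
    d (f y) * w (f y) * Circle.exp (χ (f y) * θ y) else S.φ y
  have nr : ∀ y ∉ col v Φ (PP Φ M), |ar Φ y| < al (a - 1) → ∀ᶠ z in 𝓝 y, ψ z = S.φ z := by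
    intro y hy h
    have o1 : IsOpen (N ∩ interior {x | χ x = 1}) := hN.inter isOpen_interior
    have s1 : (N ∩ interior {x | χ x = 1})ᶜ ⊆ F := compl_subset_comm.1 fun x hx =>
      ⟨hF hx, subset_interior_iff_mem_nhdsSet.2 χ1 hx⟩
    have s2 : π '' (N ∩ interior {x | χ x = 1})ᶜ ⊆ PP Φ M := (T.maps'.mono_left s1).image_subset
    have cl := closed_col trk B X (o1.isClosed_compl.isCompact.image_of_continuousOn
      (T.cont.mono s1)) s2 (al_lt_pi (s := a - 1) (by linarith))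
    filter_upwards [cl.isOpen_compl.mem_nhds fun c => hy ((T.colK _ s2 y).1 c.1).1,
      ca.continuousAt.eventually (gt_mem_nhds h)] with z z1 z2
    by_cases c : z ∈ col v Φ (PP Φ M)
    · have m : f z ∈ N ∩ interior {x | χ x = 1} := not_not.1 fun c' =>
        z1 ⟨(T.colK _ s2 z).2 ⟨c, mem_image_of_mem _ c'⟩, z2.le⟩
      rw [← θe z ⟨c, z2, m.1⟩]
      simp only [ψ, if_pos c, d1 _ m.1, mem_ofPred.1 (interior_subset m.2), one_mul]
    · exact if_neg c
  have sm : ∀ y, |ar Φ y| < al (a - 1) → CSm (𝓡 3) ψ y := fun y h => by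
    by_cases c : y ∈ col v Φ (PP Φ M)
    · have c1 := T.opc.mem_nhds c
      have sf := T.sm.contMDiffAt c1
      have sw : CSm (𝓡 3) (fun z => w (f z)) y := (hw _).comp y sf
      have e : ContMDiffAt (𝓡 3) 𝓘(ℝ, ℝ) ∞ (fun z => χ (f z) * θ z) y := by
        by_cases c2 : f y ∈ N
        · have c3 : DD v Φ M f N a ∈ 𝓝 y := inter_mem c1 (inter_mem
            (ca.continuousAt.eventually (gt_mem_nhds h)) (sf.continuousAt (hN.mem_nhds c2)))
          refine ((χ.contMDiff _).comp y sf).mul (contMDiffAt_log (θc.continuousAt c3) ?_)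
          refine ContMDiffAt.congr_of_eventuallyEq (sw.inv.mul (S.sφ.contMDiffAt
            (S.op.mem_nhds (hO y h.le fun _ => c2)))) ?_
          filter_upwards [c3] with z hz using eq_inv_mul_of_mul_eq (θe z hz)
        · refine (contMDiffAt_const (c := (0 : ℝ))).congr_of_eventuallyEq ?_
          filter_upwards [sf.continuousAt (mem_nhdsSet_iff_forall.1 χ0 _ c2)] with z hz
          exact mul_eq_zero_of_left hz _
      refine ContMDiffAt.congr_of_eventuallyEq (CSm.mul (CSm.mul (g := fun z => d (f z))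
        ((hd _).comp y sf) sw) (csm_exp e)) ?_
      filter_upwards [c1] with z hz using if_pos hz
    · exact (S.sφ.contMDiffAt (S.op.mem_nhds (hO y h.le fun c' => absurd c' c))).congr_of_eventuallyEq
        (nr y c h)
  have lo : ∀ s ∈ Ioc (0 : ℝ) 7, rp a s = a := fun s hs => rp_lo (by linarith [hs.2])
  refine ⟨ψ ∘ ro b a, fun x => ψ (b (x, -a)), fun x => ?_, fun y hy => ?_,
    mem_nhdsSet_iff_forall.2 fun y hy => ?_, fun x s hs => ⟨?_, ?_⟩, fun x h1 h2 y hy e => ?_⟩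
  · refine (sm _ ?_).comp x ((X.box.contMDiff _).comp x (contMDiffAt_id.prodMk contMDiffAt_const))
    rw [abs_ar X x (neg_ne_zero.2 a0.ne'), abs_neg, abs_of_pos a0]
    exact al_lt.2 (sub_one_lt a)
  · exact ((sm _ (ro_ar X a0 hy)).comp y (ro_sm B X a0 hy)).contMDiffWithinAt
  · have z := ar_zero.2 (B.one y hy)
    filter_upwards [ro_near B X a0 z, nr y (not_col B hy) (by rw [z, abs_zero]; exact al_pos _)]
      with z z1 z2
    rw [comp_apply, z1, z2]
  · rw [comp_apply, ro_b X, rr, if_pos hs.1, lo s hs]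
    by_cases c : x ∈ F
    · have e : χ x * θ (b (x, a)) = 0 := (em (x ∈ N)).elim
        (fun c' => mul_eq_zero_of_right _ (θ0 x c c'))
        fun c' => mul_eq_zero_of_left (χ0.self_of_nhdsSet x c') _
      simp only [ψ, if_pos ((T.mem x a a1).2 c), T.box x a a1, e, Circle.exp_zero, mul_one]
    · simp only [ψ, if_neg fun c' => c ((T.mem x a a1).1 c'), d1 x (hF c), w1 x c, one_mul]
  · rw [comp_apply, ro_b X, rr, if_neg (neg_nonpos.2 hs.1.le).not_gt, neg_neg, lo s hs]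
  · have m := ro_col trk B X T a0 hy
    have z : χ x * θ (ro b a y) = 0 := h2.elim
      (fun c' => mul_eq_zero_of_left (χ0.self_of_nhdsSet x c') _)
      fun c' => mul_eq_zero_of_right _ (c' _)
    simp only [comp_apply, ψ, if_pos m.1, m.2, e, h1, z, Circle.exp_zero, mul_one]

/-- **PHIHAT** -/
theorem hat (trk : TrkStmt) (ext : ExtStmt) : HatStmt := by
  classical
  intro Y R o v Φ M M' oR b S F f π C d B X T hC hc hd d1
  have ca := continuous_abs_ar B.smΦ.continuous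
  obtain ⟨η, η0, hη⟩ := (S.op.union T.opc).isClosed_compl.isCompact.exists_forall_le'
    ca.continuousOn (a := 0) fun y hy => abs_pos.2 fun e => hy ((em (y ∈ M)).elim
      (fun c => .inl ((S.meq y).1 c).1) fun c => .inr (pp_col B ⟨ar_zero.1 e, c⟩))
  have tl : Tendsto (fun a : ℝ => al (a - 1)) atTop (𝓝 (Real.pi - 2 * (Real.pi / 2))) :=
    tendsto_const_nhds.sub (((Real.tendsto_arctan_atTop.mono_right nhdsWithin_le_nhds).comp
      (tendsto_atTop_add_const_right _ (-1) tendsto_id)).const_mul 2)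
  obtain ⟨a, ha, a8⟩ := ((tl.eventually (gt_mem_nhds (a := η) (by linarith))).and
    (eventually_ge_atTop 8)).exists
  have a0 : 0 < a := by linarith
  have a1 : 0 < 1 * a := by rwa [one_mul]
  have k1 : {y | |ar Φ y| ≤ al (a - 1)} ∩ S.Oᶜ ⊆ col v Φ (PP Φ M) := fun y hy =>
    not_not.1 fun c => (ha.trans_le (hη y fun c' => c'.elim hy.2 c)).not_ge hy.1
  obtain ⟨N, hN, hF, dN, hO⟩ : ∃ N : Set R, IsOpen N ∧ Fᶜ ⊆ N ∧ (∀ x ∈ N, d x = 1) ∧
      ∀ y, |ar Φ y| ≤ al (a - 1) → (y ∈ col v Φ (PP Φ M) → f y ∈ N) → y ∈ S.O :=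
    ⟨(f '' ({y | |ar Φ y| ≤ al (a - 1)} ∩ S.Oᶜ))ᶜ ∩ interior {x | d x = 1},
      (((isClosed_le ca continuous_const).inter S.op.isClosed_compl).isCompact.image_of_continuousOn
        (T.sm.continuousOn.mono k1)).isClosed.isOpen_compl.inter isOpen_interior,
      fun x hx => ⟨fun ⟨y, h, e⟩ => hx (e ▸ T.maps (k1 h)), subset_interior_iff_mem_nhdsSet.2 d1 hx⟩,
      fun x hx => interior_subset (s := {x | d x = 1}) hx.2,
      fun y h1 h2 => not_not.1 fun c => (h2 (k1 ⟨h1, c⟩)).1 ⟨y, ⟨h1, c⟩, rfl⟩⟩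
  rcases hc with ⟨hCF, hc⟩ | hc
  · obtain ⟨U, V, oU, oV, sU, sV, dj⟩ := normal_separation T.op.isClosed_compl hC
      (disjoint_compl_left_iff_subset.2 hCF)
    have su : ∀ x ∈ N, CSm (𝓡 2) (fun x => S.φ (b (x, a))) x := fun x hx => by
      refine (S.sφ.contMDiffAt (S.op.mem_nhds (hO _ ?_ fun _ => (T.box x a a1).symm ▸ hx))).comp x
        ((X.box.contMDiff _).comp x (contMDiffAt_id.prodMk contMDiffAt_const))
      rw [abs_ar X x a0.ne', abs_of_pos a0]
      exact (al_lt.2 (sub_one_lt a)).le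
    obtain ⟨w, hw, e⟩ := ext R oR (F \ C) (N ∩ U ∪ V) (fun x => if x ∈ U then S.φ (b (x, a)) else 1)
      X.ori (T.op.sdiff hC) hc ((hN.inter oU).union oV)
      (fun x hx => (em (x ∈ F)).elim (fun c => .inr (sV (not_not.1 fun c' => hx ⟨c, c'⟩)))
        fun c => .inl ⟨hF c, sU c⟩) fun x hx => ContMDiffAt.contMDiffWithinAt (by
      rcases hx with hx | hx
      · refine (su x hx.1).congr_of_eventuallyEq ?_
        filter_upwards [oU.mem_nhds hx.2] with z hz using if_pos hz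
      · refine (contMDiffAt_const (c := (1 : Circle))).congr_of_eventuallyEq ?_
        filter_upwards [oV.mem_nhds hx] with z hz using if_neg (dj.notMem_of_mem_right hz))
    have sF : Fᶜ ⊆ N ∩ U ∩ interior {x | w x = if x ∈ U then S.φ (b (x, a)) else 1} := fun x hx =>
      ⟨⟨hF hx, sU hx⟩, subset_interior_iff_mem_nhdsSet.2 e fun c => hx c.1⟩
    have w1 : ∀ x ∈ N ∩ U ∩ interior {x | w x = if x ∈ U then S.φ (b (x, a)) else 1},
        w x = S.φ (b (x, a)) := fun x hx => (interior_subset hx.2).trans (if_pos hx.1.2)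
    have hO' := fun y h1 (h2 : y ∈ col v Φ (PP Φ M) → f y ∈
      N ∩ U ∩ interior {x | w x = if x ∈ U then S.φ (b (x, a)) else 1}) =>
        hO y h1 fun c => (h2 c).1.1
    obtain ⟨θ, θc, θe, θ0⟩ := theta trk B X S T a0 hO'
    obtain ⟨ψ, um, p1, p2, p3, p4, p5⟩ := core trk B X S T a8 ((hN.inter oU).inter isOpen_interior)
      sF hO' hd hw (fun x hx => dN x hx.1.1) (fun x hx => w1 x (sF hx)) θc
      (fun y hy => (w1 _ hy.2.2).symm ▸ θe y hy) θ0
    have nC : ∀ᶠ x in 𝓝ˢ C, w x = 1 ∧ x ∉ U := by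
      filter_upwards [nhdsSet_mono (fun x hx c => c.2 hx : C ⊆ (F \ C)ᶜ) e,
        oV.mem_nhdsSet.2 sV] with x h1 h2
      have := dj.notMem_of_mem_right h2
      exact ⟨h1.trans (if_neg this), this⟩
    exact ⟨ψ, w, um, hw, p1, nC.mono fun x h => h.1, p2, p3, p4,
      nC.mono fun x h => p5 x h.1 (.inl fun c => h.2 c.1.2)⟩
  · obtain ⟨ψ, um, p1, p2, p3, p4, p5⟩ := core trk B X S T a8 hN hF hO (θ := fun _ => 0)
      (w := fun _ => 1) hd contMDiff_const dN (fun x _ => (hc _).symm) continuousOn_const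
      (fun y _ => by rw [hc, Circle.exp_zero, mul_one]) fun _ _ _ => rfl
    exact ⟨ψ, fun _ => 1, um, contMDiff_const, p1, .of_forall fun _ => rfl, p2, p3, p4,
      .of_forall fun x => p5 x rfl (.inr fun _ => rfl)⟩

end Crest.Agent.X212.Hat42
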